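import Crest.Agent.R163.Q3.D.B7.S0
import Crest.Agent.R163.Q3.D.B7.H

set_option autoImplicit false
set_option maxRecDepth 100000
set_option linter.all false
set_option Elab.async false

namespace Crest.Agent.R163.B7

theorem p0_0_0 : Ok2 par f0 Box3.unit C0 :=
  Ok2.run hw hf0 ⟨260,19,19,7,12⟩ 58
    (.chk false 2048)
    (by decide +kernel)

theorem p0_1_0 : Ok2 par f1 Box3.unit (selB2 1 C0 4722366482869544550399) :=
  Ok2.run hw hf1 ⟨260,19,19,7,12⟩ 58
    (.chk false 2048)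
    (by decide +kernel)

theorem p0_1_1 : Ok2 par f1 Box3.unit (selB2 0 C0 4722366482869544550399) :=
  Ok2.run hw hf1 ⟨401,19,19,7,12⟩ 58
    (.split 1 (.split 0 (.chk false 0) (.part 1 (.chk false 0) (.split 1 (.split 0 (.chk false 0) (.split 1 (.split 0 (.chk false 0) (.chk false 0)) (.chk false 0))) (.chk false 0)))) (.chk false 0))
    (by decide +kernel)

theorem p0_2_0 : Ok2 par f2 ((((Box3.unit.l 1).r 0).r 1).l 1) (selB2 0 (selB2 0 (selB2 0 (selB2 0 C0 2362192610429442031615) 2692742584) 232) 15) :=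
  Ok2.run hw hf2 ⟨352,19,19,7,12⟩ 58
    (.chk false 0)
    (by decide +kernel)

theorem p0_2_1 : Ok2 par f2 ((((Box3.unit.l 1).r 0).r 1).r 1) (selB2 0 (selB2 0 (selB2 0 (selB2 0 C0 2362192610429442031615) 2692742584) 232) 15) :=
  Ok2.run hw hf2 ⟨436,19,19,7,12⟩ 58
    (.part 1 (.chk false 0) (.split 1 (.part 8 (.chk false 0) (.split 0 (.part 6 (.chk false 0) (.split 1 (.chk false 0) (.split 0 (.chk false 0) (.split 1 (.chk false 0) (.chk false 0))))) (.part 6 (.chk false 0) (.split 1 (.chk false 0) (.chk false 0))))) (.split 0 (.part 11 (.chk false 0) (.split 0 (.split 1 (.chk false 0) (.split 0 (.chk false 0) (.chk false 0))) (.chk false 0))) (.chk false 0))))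
    (by decide +kernel)

theorem p0_2_2 : Ok2 par f2 (((Box3.unit.l 1).r 0).r 1) (selB2 1 (selB2 0 (selB2 0 (selB2 0 C0 2362192610429442031615) 2692742584) 232) 15) :=
  Ok2.run hw hf2 ⟨332,19,19,7,12⟩ 58
    (.chk false 2048)
    (by decide +kernel)

theorem p0_2_3 : Ok2 par f2 (((Box3.unit.l 1).r 0).l 1) (selB2 0 (selB2 0 (selB2 0 C0 2362192610429442031615) 2692742584) 232) :=
  Ok2.run hw hf2 ⟨417,19,19,7,12⟩ 58
    (.part 503 (.chk false 2048) (.split 0 (.chk false 0) (.split 1 (.chk false 0) (.split 0 (.chk false 0) (.split 1 (.chk false 0) (.chk false 0))))))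
    (by decide +kernel)

theorem p0_2_4 : Ok2 par f2 ((Box3.unit.l 1).r 0) (selB2 1 (selB2 0 (selB2 0 C0 2362192610429442031615) 2692742584) 232) :=
  Ok2.run hw hf2 ⟨319,19,19,7,12⟩ 58
    (.chk false 0)
    (by decide +kernel)

theorem p0_2_5 : Ok2 par f2 ((Box3.unit.l 1).l 0) (selB2 0 (selB2 0 C0 2362192610429442031615) 2692742584) :=
  Ok2.run hw hf2 ⟨382,19,19,7,12⟩ 58
    (.part 8023 (.chk false 2048) (.split 0 (.part 5 (.chk false 0) (.split 1 (.split 1 (.chk false 0) (.chk false 0)) (.chk false 0))) (.part 5 (.chk false 0) (.split 1 (.split 1 (.chk false 0) (.chk false 0)) (.chk false 0)))))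
    (by decide +kernel)

theorem p0_2_6 : Ok2 par f2 (Box3.unit.l 1) (selB2 1 (selB2 0 C0 2362192610429442031615) 2692742584) :=
  Ok2.run hw hf2 ⟨290,19,19,7,12⟩ 58
    (.chk false 2048)
    (by decide +kernel)

theorem p0_2_7 : Ok2 par f2 (((((((Box3.unit.r 1).r 0).r 1).r 0).r 1).r 0).l 1) (selB2 0 (selB2 0 (selB2 0 (selB2 0 (selB2 0 (selB2 0 C0 2362192610429442031615) 260049639) 163840) 245761) 1319) 64) :=
  Ok2.run hw hf2 ⟨529,19,19,7,12⟩ 58
    (.part 31 (.chk false 0) (.split 0 (.chk false 0) (.split 1 (.chk false 0) (.split 0 (.chk false 0) (.split 1 (.chk false 0) (.split 0 (.chk false 0) (.split 1 (.chk false 0) (.chk false 0))))))))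
    (by decide +kernel)

theorem p0_2_8 : Ok2 par f2 (((((((Box3.unit.r 1).r 0).r 1).r 0).r 1).r 0).r 1) (selB2 0 (selB2 0 (selB2 0 (selB2 0 (selB2 0 (selB2 0 C0 2362192610429442031615) 260049639) 163840) 245761) 1319) 64) :=
  Ok2.run hw hf2 ⟨513,19,19,7,12⟩ 58
    (.part 37 (.chk false 0) (.split 0 (.chk false 0) (.split 1 (.chk false 0) (.part 6 (.chk false 0) (.split 0 (.chk false 0) (.split 0 (.chk false 0) (.split 1 (.chk false 0) (.chk false 0))))))))
    (by decide +kernel)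

theorem p0_2_9 : Ok2 par f2 ((((((Box3.unit.r 1).r 0).r 1).r 0).r 1).r 0) (selB2 1 (selB2 0 (selB2 0 (selB2 0 (selB2 0 (selB2 0 C0 2362192610429442031615) 260049639) 163840) 245761) 1319) 64) :=
  Ok2.run hw hf2 ⟨402,19,19,7,12⟩ 58
    (.chk false 0)
    (by decide +kernel)

theorem p0_2_10 : Ok2 par f2 ((((((Box3.unit.r 1).r 0).r 1).r 0).r 1).l 0) (selB2 0 (selB2 0 (selB2 0 (selB2 0 (selB2 0 C0 2362192610429442031615) 260049639) 163840) 245761) 1319) :=
  Ok2.run hw hf2 ⟨398,19,19,7,12⟩ 58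
    (.chk false 0)
    (by decide +kernel)

theorem p0_2_11 : Ok2 par f2 (((((Box3.unit.r 1).r 0).r 1).r 0).r 1) (selB2 1 (selB2 0 (selB2 0 (selB2 0 (selB2 0 C0 2362192610429442031615) 260049639) 163840) 245761) 1319) :=
  Ok2.run hw hf2 ⟨382,19,19,7,12⟩ 58
    (.chk false 2048)
    (by decide +kernel)

theorem p0_2_12 : Ok2 par f2 (((((Box3.unit.r 1).r 0).r 1).r 0).l 1) (selB2 0 (selB2 0 (selB2 0 (selB2 0 C0 2362192610429442031615) 260049639) 163840) 245761) :=
  Ok2.run hw hf2 ⟨455,19,19,7,12⟩ 58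
    (.part 6879 (.chk false 2048) (.split 1 (.chk false 0) (.part 3 (.chk false 0) (.split 0 (.chk false 0) (.split 0 (.chk false 0) (.split 1 (.chk false 0) (.chk false 0)))))))
    (by decide +kernel)

theorem p0_2_13 : Ok2 par f2 ((((Box3.unit.r 1).r 0).r 1).l 0) (selB2 0 (selB2 0 (selB2 0 (selB2 0 C0 2362192610429442031615) 260049639) 163840) 245761) :=
  Ok2.run hw hf2 ⟨354,19,19,7,12⟩ 58
    (.chk false 2048)
    (by decide +kernel)

theorem p0_2_14 : Ok2 par f2 (((Box3.unit.r 1).r 0).r 1) (selB2 1 (selB2 0 (selB2 0 (selB2 0 C0 2362192610429442031615) 260049639) 163840) 245761) :=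
  Ok2.run hw hf2 ⟨341,19,19,7,12⟩ 58
    (.chk false 1024)
    (by decide +kernel)

theorem p0_2_15 : Ok2 par f2 (((Box3.unit.r 1).r 0).l 1) (selB2 0 (selB2 0 (selB2 0 C0 2362192610429442031615) 260049639) 163840) :=
  Ok2.run hw hf2 ⟨412,19,19,7,12⟩ 58
    (.part 16383 (.chk false 2048) (.split 1 (.part 7 (.chk false 0) (.split 1 (.split 0 (.chk false 0) (.chk false 0)) (.chk false 0))) (.part 8 (.chk false 0) (.split 0 (.part 5 (.chk false 0) (.split 1 (.chk false 0) (.chk false 0))) (.split 1 (.chk false 0) (.part 5 (.chk false 0) (.split 1 (.chk false 0) (.chk false 0))))))))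
    (by decide +kernel)

theorem p0_2_16 : Ok2 par f2 ((Box3.unit.r 1).r 0) (selB2 1 (selB2 0 (selB2 0 C0 2362192610429442031615) 260049639) 163840) :=
  Ok2.run hw hf2 ⟨319,19,19,7,12⟩ 58
    (.chk false 0)
    (by decide +kernel)

theorem p0_2_17 : Ok2 par f2 ((Box3.unit.r 1).l 0) (selB2 0 (selB2 0 C0 2362192610429442031615) 260049639) :=
  Ok2.run hw hf2 ⟨319,19,19,7,12⟩ 58
    (.chk false 2048)
    (by decide +kernel)

theorem p0_2_18 : Ok2 par f2 (Box3.unit.r 1) (selB2 1 (selB2 0 C0 2362192610429442031615) 260049639) :=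
  Ok2.run hw hf2 ⟨290,19,19,7,12⟩ 58
    (.chk false 2048)
    (by decide +kernel)

theorem p0_2_19 : Ok2 par f2 Box3.unit (selB2 1 C0 2362192610429442031615) :=
  Ok2.run hw hf2 ⟨262,19,19,7,12⟩ 58
    (.chk false 2048)
    (by decide +kernel)

theorem p0_3_0 : Ok2 par f3 (((Box3.unit.r 1).r 0).l 0) (selB2 0 (selB2 0 C0 2362335599984929406975) 3) :=
  Ok2.run hw hf3 ⟨393,19,19,7,12⟩ 58
    (.part 32541 (.chk false 0) (.split 1 (.chk false 0) (.part 1 (.chk false 0) (.split 1 (.chk false 0) (.split 0 (.chk false 0) (.chk false 0))))))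
    (by decide +kernel)

theorem p0_3_1 : Ok2 par f3 (((Box3.unit.r 1).r 0).r 0) (selB2 0 (selB2 0 C0 2362335599984929406975) 3) :=
  Ok2.run hw hf3 ⟨420,19,19,7,12⟩ 58
    (.part 507 (.chk false 0) (.split 1 (.chk false 0) (.part 70 (.chk false 0) (.split 0 (.chk false 0) (.part 6 (.chk false 0) (.split 1 (.chk false 0) (.part 2 (.chk false 0) (.split 0 (.chk false 0) (.chk false 0)))))))))
    (by decide +kernel)

theorem p0_3_2 : Ok2 par f3 ((Box3.unit.r 1).r 0) (selB2 1 (selB2 0 C0 2362335599984929406975) 3) :=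
  Ok2.run hw hf3 ⟨317,19,19,7,12⟩ 58
    (.chk false 0)
    (by decide +kernel)

theorem p0_3_3 : Ok2 par f3 ((Box3.unit.r 1).l 0) (selB2 0 C0 2362335599984929406975) :=
  Ok2.run hw hf3 ⟨393,19,19,7,12⟩ 58
    (.part 131070 (.chk false 0) (.split 1 (.chk false 0) (.split 0 (.chk false 0) (.split 1 (.chk false 0) (.split 0 (.chk false 0) (.chk false 0))))))
    (by decide +kernel)

theorem p0_3_4 : Ok2 par f3 (Box3.unit.l 1) (selB2 0 C0 2362335599984929406975) :=
  Ok2.run hw hf3 ⟨289,19,19,7,12⟩ 58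
    (.chk false 0)
    (by decide +kernel)

theorem p0_3_5 : Ok2 par f3 Box3.unit (selB2 1 C0 2362335599984929406975) :=
  Ok2.run hw hf3 ⟨260,19,19,7,12⟩ 58
    (.chk false 2048)
    (by decide +kernel)

theorem p0_4_0 : Ok2 par f4 (((((Box3.unit.r 0).r 0).l 1).r 0).l 1) (selB2 1 (selB2 0 (selB2 0 (selB2 0 C0 4722366348969744793599) 1) 1) 3) :=
  Ok2.run hw hf4 ⟨382,19,19,7,12⟩ 58
    (.chk false 0)
    (by decide +kernel)

theorem p0_4_1 : Ok2 par f4 (((((Box3.unit.r 0).r 0).l 1).r 0).l 1) (selB2 0 (selB2 0 (selB2 0 (selB2 0 C0 4722366348969744793599) 1) 1) 3) :=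
  Ok2.run hw hf4 ⟨543,19,19,7,12⟩ 58
    (.split 1 (.part 5 (.chk false 0) (.split 0 (.chk false 0) (.split 1 (.chk false 0) (.chk false 0)))) (.part 14 (.chk false 0) (.split 0 (.chk false 0) (.split 0 (.chk false 0) (.split 1 (.chk false 0) (.split 0 (.chk false 0) (.split 1 (.split 0 (.chk false 0) (.split 1 (.chk false 0) (.split 0 (.chk false 0) (.chk false 0)))) (.chk false 0))))))))
    (by decide +kernel)

theorem p0_4_2 : Ok2 par f4 (((((Box3.unit.r 0).r 0).l 1).r 0).r 1) (selB2 0 (selB2 0 (selB2 0 C0 4722366348969744793599) 1) 1) :=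
  Ok2.run hw hf4 ⟨374,19,19,7,12⟩ 58
    (.chk false 0)
    (by decide +kernel)

theorem p0_4_3 : Ok2 par f4 ((((Box3.unit.r 0).r 0).l 1).l 0) (selB2 0 (selB2 0 (selB2 0 C0 4722366348969744793599) 1) 1) :=
  Ok2.run hw hf4 ⟨357,19,19,7,12⟩ 58
    (.chk false 0)
    (by decide +kernel)

theorem p0_4_4 : Ok2 par f4 (((Box3.unit.r 0).r 0).l 1) (selB2 1 (selB2 0 (selB2 0 C0 4722366348969744793599) 1) 1) :=
  Ok2.run hw hf4 ⟨341,19,19,7,12⟩ 58
    (.chk false 0)
    (by decide +kernel)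

theorem p0_4_5 : Ok2 par f4 (((Box3.unit.r 0).r 0).r 1) (selB2 0 (selB2 0 C0 4722366348969744793599) 1) :=
  Ok2.run hw hf4 ⟨382,19,19,7,12⟩ 58
    (.part 121 (.chk false 0) (.split 0 (.chk false 0) (.split 1 (.chk false 0) (.chk false 0))))
    (by decide +kernel)

theorem p0_4_6 : Ok2 par f4 ((Box3.unit.r 0).l 0) (selB2 0 (selB2 0 C0 4722366348969744793599) 1) :=
  Ok2.run hw hf4 ⟨303,19,19,7,12⟩ 58
    (.chk false 0)
    (by decide +kernel)

theorem p0_4_7 : Ok2 par f4 (Box3.unit.r 0) (selB2 1 (selB2 0 C0 4722366348969744793599) 1) :=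
  Ok2.run hw hf4 ⟨290,19,19,7,12⟩ 58
    (.chk false 0)
    (by decide +kernel)

theorem p0_4_8 : Ok2 par f4 (Box3.unit.l 0) (selB2 0 C0 4722366348969744793599) :=
  Ok2.run hw hf4 ⟨290,19,19,7,12⟩ 58
    (.chk false 0)
    (by decide +kernel)

theorem p0_4_9 : Ok2 par f4 Box3.unit (selB2 1 C0 4722366348969744793599) :=
  Ok2.run hw hf4 ⟨262,19,19,7,12⟩ 58
    (.chk false 2048)
    (by decide +kernel)

theorem p0_5_0 : Ok2 par f5 (((Box3.unit.l 0).r 1).l 0) (selB2 1 (selB2 0 (selB2 0 (selB2 0 (selB2 0 C0 4722223355048911787519) 127) 3983) 1) 383) :=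
  Ok2.run hw hf5 ⟨340,19,19,7,12⟩ 58
    (.chk false 0)
    (by decide +kernel)

theorem p0_5_1 : Ok2 par f5 (((Box3.unit.l 0).r 1).l 0) (selB2 0 (selB2 0 (selB2 0 (selB2 0 (selB2 0 C0 4722223355048911787519) 127) 3983) 1) 383) :=
  Ok2.run hw hf5 ⟨456,19,19,7,12⟩ 58
    (.split 1 (.chk false 0) (.split 0 (.part 4 (.chk false 0) (.split 1 (.chk false 0) (.part 4 (.chk false 0) (.split 0 (.chk false 0) (.part 2 (.chk false 0) (.split 1 (.chk false 0) (.split 0 (.chk false 0) (.chk false 0)))))))) (.part 11 (.chk false 0) (.split 1 (.chk false 0) (.split 0 (.chk false 0) (.split 1 (.chk false 0) (.chk false 0)))))))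
    (by decide +kernel)

theorem p0_5_2 : Ok2 par f5 (((((Box3.unit.l 0).r 1).r 0).r 1).l 0) (selB2 0 (selB2 0 (selB2 0 (selB2 0 (selB2 0 (selB2 0 C0 4722223355048911787519) 127) 3983) 1) 2944) 160) :=
  Ok2.run hw hf5 ⟨450,19,19,7,12⟩ 58
    (.part 29 (.chk false 0) (.split 1 (.chk false 0) (.split 0 (.part 1 (.chk false 0) (.split 1 (.chk false 0) (.split 0 (.chk false 0) (.chk false 0)))) (.chk false 0))))
    (by decide +kernel)


end Crest.Agent.R163.B7
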