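import Crest.Agent.R163.Q3.D.B7.S0
import Crest.Agent.R163.Q3.D.B7.H

set_option autoImplicit false
set_option maxRecDepth 100000
set_option linter.all false
set_option Elab.async false

namespace Crest.Agent.R163.B7

theorem p0_5_3 : Ok2 par f5 (((((Box3.unit.l 0).r 1).r 0).r 1).r 0) (selB2 0 (selB2 0 (selB2 0 (selB2 0 (selB2 0 (selB2 0 C0 4722223355048911787519) 127) 3983) 1) 2944) 160) :=
  Ok2.run hw hf5 ⟨464,19,19,7,12⟩ 58
    (.part 35 (.chk false 0) (.split 1 (.chk false 0) (.part 1 (.chk false 0) (.split 0 (.part 1 (.chk false 0) (.split 1 (.chk false 0) (.split 0 (.split 1 (.chk false 0) (.chk false 0)) (.chk false 0)))) (.part 2 (.chk false 0) (.split 1 (.chk false 0) (.chk false 0)))))))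
    (by decide +kernel)

theorem p0_5_4 : Ok2 par f5 ((((Box3.unit.l 0).r 1).r 0).r 1) (selB2 1 (selB2 0 (selB2 0 (selB2 0 (selB2 0 (selB2 0 C0 4722223355048911787519) 127) 3983) 1) 2944) 160) :=
  Ok2.run hw hf5 ⟨353,19,19,7,12⟩ 58
    (.chk false 0)
    (by decide +kernel)

theorem p0_5_5 : Ok2 par f5 ((((Box3.unit.l 0).r 1).r 0).l 1) (selB2 0 (selB2 0 (selB2 0 (selB2 0 (selB2 0 C0 4722223355048911787519) 127) 3983) 1) 2944) :=
  Ok2.run hw hf5 ⟨345,19,19,7,12⟩ 58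
    (.chk false 0)
    (by decide +kernel)

theorem p0_5_6 : Ok2 par f5 (((Box3.unit.l 0).r 1).r 0) (selB2 1 (selB2 0 (selB2 0 (selB2 0 (selB2 0 C0 4722223355048911787519) 127) 3983) 1) 2944) :=
  Ok2.run hw hf5 ⟨331,19,19,7,12⟩ 58
    (.chk false 0)
    (by decide +kernel)

theorem p0_5_7 : Ok2 par f5 ((Box3.unit.l 0).r 1) (selB2 1 (selB2 0 (selB2 0 (selB2 0 C0 4722223355048911787519) 127) 3983) 1) :=
  Ok2.run hw hf5 ⟨318,19,19,7,12⟩ 58
    (.chk false 0)
    (by decide +kernel)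

theorem p0_5_8 : Ok2 par f5 ((Box3.unit.l 0).l 1) (selB2 0 (selB2 0 (selB2 0 C0 4722223355048911787519) 127) 3983) :=
  Ok2.run hw hf5 ⟨318,19,19,7,12⟩ 58
    (.chk false 0)
    (by decide +kernel)

theorem p0_5_9 : Ok2 par f5 (Box3.unit.l 0) (selB2 1 (selB2 0 (selB2 0 C0 4722223355048911787519) 127) 3983) :=
  Ok2.run hw hf5 ⟨290,19,19,7,12⟩ 58
    (.chk false 0)
    (by decide +kernel)

theorem p0_5_10 : Ok2 par f5 (((Box3.unit.r 0).r 1).l 0) (selB2 0 (selB2 0 (selB2 0 (selB2 0 C0 4722223355048911787519) 127) 4162592) 5183) :=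
  Ok2.run hw hf5 ⟨443,19,19,7,12⟩ 58
    (.split 1 (.chk false 0) (.split 0 (.split 1 (.chk false 0) (.part 16 (.chk false 0) (.split 0 (.part 14 (.chk false 0) (.split 1 (.chk false 0) (.split 0 (.chk false 0) (.chk false 0)))) (.part 8 (.chk false 0) (.split 1 (.chk false 0) (.chk false 0)))))) (.part 25 (.chk false 0) (.split 1 (.chk false 0) (.chk false 0)))))
    (by decide +kernel)

theorem p0_5_11 : Ok2 par f5 (((Box3.unit.r 0).r 1).r 0) (selB2 0 (selB2 0 (selB2 0 (selB2 0 C0 4722223355048911787519) 127) 4162592) 5183) :=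
  Ok2.run hw hf5 ⟨340,19,19,7,12⟩ 58
    (.chk false 0)
    (by decide +kernel)

theorem p0_5_12 : Ok2 par f5 ((Box3.unit.r 0).r 1) (selB2 1 (selB2 0 (selB2 0 (selB2 0 C0 4722223355048911787519) 127) 4162592) 5183) :=
  Ok2.run hw hf5 ⟨318,19,19,7,12⟩ 58
    (.chk false 0)
    (by decide +kernel)

theorem p0_5_13 : Ok2 par f5 ((Box3.unit.r 0).l 1) (selB2 0 (selB2 0 (selB2 0 C0 4722223355048911787519) 127) 4162592) :=
  Ok2.run hw hf5 ⟨318,19,19,7,12⟩ 58
    (.chk false 0)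
    (by decide +kernel)

theorem p0_5_14 : Ok2 par f5 (Box3.unit.r 0) (selB2 1 (selB2 0 (selB2 0 C0 4722223355048911787519) 127) 4162592) :=
  Ok2.run hw hf5 ⟨290,19,19,7,12⟩ 58
    (.chk false 0)
    (by decide +kernel)

theorem p0_5_15 : Ok2 par f5 Box3.unit (selB2 1 (selB2 0 C0 4722223355048911787519) 127) :=
  Ok2.run hw hf5 ⟨304,25,25,7,13⟩ 58
    (.chk true 0)
    (by decide +kernel)

theorem p0_5_16 : Ok2 par f5 Box3.unit (selB2 1 C0 4722223355048911787519) :=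
  Ok2.run hw hf5 ⟨261,19,19,7,12⟩ 58
    (.chk false 1024)
    (by decide +kernel)

theorem p0_6_0 : Ok2 par f6 Box3.unit (selB2 1 C0 4722366482866953868799) :=
  Ok2.run hw hf6 ⟨265,19,19,7,12⟩ 58
    (.chk false 0)
    (by decide +kernel)

theorem p0_6_1 : Ok2 par f6 Box3.unit (selB2 0 C0 4722366482866953868799) :=
  Ok2.run hw hf6 ⟨314,25,25,7,13⟩ 58
    (.part 255 (.chk true 0) (.split 0 (.chk false 0) (.chk false 0)))
    (by decide +kernel)

theorem p0_7_0 : Ok2 par f7 Box3.unit (selB2 1 (selB2 0 C0 4722366482841184065023) 255) :=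
  Ok2.run hw hf7 ⟨365,25,25,13,13⟩ 58
    (.chk true 0)
    (by decide +kernel)

theorem p0_7_1 : Ok2 par f7 Box3.unit (selB2 0 (selB2 0 C0 4722366482841184065023) 255) :=
  Ok2.run hw hf7 ⟨395,19,19,13,13⟩ 58
    (.split 0 (.part 4 (.chk false 0) (.split 1 (.split 0 (.chk false 0) (.chk false 0)) (.chk false 0))) (.chk false 0))
    (by decide +kernel)

theorem p0_7_2 : Ok2 par f7 Box3.unit (selB2 1 C0 4722366482841184065023) :=
  Ok2.run hw hf7 ⟨316,19,19,13,13⟩ 58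
    (.chk false 0)
    (by decide +kernel)


end Crest.Agent.R163.B7
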